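import Vale.Agent.P133.Final

namespace Vale.Agent.Results.P133.StrongPI
open Vale.Agent.P133

theorem result (C : Type*) [NonUnitalCStarAlgebra C] [PartialOrder C] [StarOrderedRing C]
    (h : PurelyInfinite C) : StronglyPurelyInfinite C :=
  spi_of_pi C h

end Vale.Agent.Results.P133.StrongPI
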